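import Mathlib.Analysis.CStarAlgebra.CStarMatrix

/-!
Definitions for P133. `A` is an arbitrary, possibly nonunital, complex C*-algebra;
`CStarMatrix (Fin k) (Fin k) A` is the C*-algebra of `k × k` matrices over `A` with its C*-norm.
The union of the matrix algebras, along upper-left corner embeddings, is dense in the
stabilization of `A`.
-/

namespace Vale.Agent.P133.Statement

universe u

variable {A : Type u} [NonUnitalCStarAlgebra A] [PartialOrder A] [StarOrderedRing A]

/-- The upper-left corner embedding of `k × k` matrices into `(k + n) × (k + n)` matrices,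
padding by zeros. -/
def pad {k : ℕ} (n : ℕ) (M : CStarMatrix (Fin k) (Fin k) A) :
    CStarMatrix (Fin (k + n)) (Fin (k + n)) A :=
  CStarMatrix.ofMatrix fun i j =>
    if h : (i : ℕ) < k ∧ (j : ℕ) < k then M ⟨i, h.1⟩ ⟨j, h.2⟩ else 0

/-- Cuntz comparison of two `k × k` matrices over `A`, computed in the stabilization of `A`:
for every `ε > 0` there is a matrix `x`, of some size `k + n`, with `‖x* v x - u‖ < ε`. -/
def CuntzLE {k : ℕ} (u v : CStarMatrix (Fin k) (Fin k) A) : Prop :=
  ∀ ε : ℝ, 0 < ε → ∃ (n : ℕ) (x : CStarMatrix (Fin (k + n)) (Fin (k + n)) A),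
    ‖star x * pad n v * x - pad n u‖ < ε

/-- A positive element `h` is properly infinite if `diag (h, h)` is Cuntz below
`diag (h, 0)`. -/
def ProperlyInfinite (h : A) : Prop :=
  CuntzLE (CStarMatrix.ofMatrix !![h, 0; 0, h]) (CStarMatrix.ofMatrix !![h, 0; 0, 0])

variable (A) in
/-- `A` is purely infinite if every positive element is properly infinite. -/
def PurelyInfinite : Prop :=
  ∀ h : A, 0 ≤ h → ProperlyInfinite h

variable (A) in
/-- `A` is strongly purely infinite. -/
def StronglyPurelyInfinite : Prop :=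
  ∀ x y : A, 0 ≤ x → 0 ≤ y → ∀ ε : ℝ, 0 < ε → ∃ s t : A,
    ‖star s * (x * x) * s - x * x‖ < ε ∧ ‖star t * (y * y) * t - y * y‖ < ε ∧
      ‖star s * (x * y) * t‖ < ε

end Vale.Agent.P133.Statement
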